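import Vale.Agent.P146.Defs
import Vale.Agent.P146.H605.Defs
import Vale.Agent.P146.H605.Defs2
import Vale.Agent.P146.R2.H749.LevDefs
import Vale.Agent.P146.H566.ChF
import Vale.Agent.P146.H865.Close4

/-!
# P146: the window of decorrelation of the Sherrington-Kirkpatrick free energy

For every `b > 1` the fluctuations of `F_n(b)`, of order `n ^ (1 / 6)`, are renewed when a
fraction of order exactly `n ^ (-1 / 3)` of the disorder is renewed: the correlation coefficient of
the free energies of two disorders of correlation `1 - T` is close to one for `T n ^ (1 / 3)` small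
and close to zero for `T n ^ (1 / 3)` large; the Hermite levels of order `n ^ (1 / 3)` carry the
variance; and the mean square overlap at the scale `T = c n ^ (-1 / 3)` is of order `n ^ (-1 / 3)`.
-/

open MeasureTheory ProbabilityTheory Filter Topology

namespace Vale.Agent.Results.P146.ChaosWindow

open Vale.Agent.P146 Vale.Agent.P146.H605 Vale.Agent.P146.R2

theorem result (b : ℝ) (hb : 1 < b) :
    ∃ c C : ℝ, 0 < c ∧ 0 < C ∧ ∀ n : ℕ, 2 ≤ n →
      -- two disorders of correlation `1 - T`
      (∀ T : ℝ, 0 < T → T ≤ 1 →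
        -- the covariance of the free energies
        ((1 - C * (T * (n : ℝ) ^ (1 / 3 : ℝ)) ^ (1 / 1000 : ℝ)) *
            Var[freeEnergy n b; disorder n] ≤ crossCov n b (1 - T) ∧
          crossCov n b (1 - T) ≤ C * (T * (n : ℝ) ^ (1 / 3 : ℝ)) ^ (-(1 / 1000) : ℝ) *
            Var[freeEnergy n b; disorder n]) ∧
        -- the overlap
        (n * T * crossOverlap n b (1 - T) ≤ C * (n : ℝ) ^ (1 / 3 : ℝ) *
            (T * (n : ℝ) ^ (1 / 3 : ℝ)) ^ (1 / 1000 : ℝ) ∧
          n * T * crossOverlap n b (1 - T) ≤ C * (n : ℝ) ^ (1 / 3 : ℝ) *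
            (T * (n : ℝ) ^ (1 / 3 : ℝ)) ^ (-(1 / 1000) : ℝ)) ∧
        -- independence of the normalised free energies
        (∀ f h : ℝ → ℝ, LipschitzWith 1 f → LipschitzWith 1 h →
          |(∫ z, ∫ g, ∫ g', f (freeEnergy n b (mixed n (1 - T) z g) /
                Real.sqrt (Var[freeEnergy n b; disorder n])) *
              h (freeEnergy n b (mixed n (1 - T) z g') /
                Real.sqrt (Var[freeEnergy n b; disorder n]))
                ∂(disorder n) ∂(disorder n) ∂(disorder n)) -
            (∫ g, f (freeEnergy n b g / Real.sqrt (Var[freeEnergy n b; disorder n]))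
                ∂(disorder n)) *
              ∫ g, h (freeEnergy n b g / Real.sqrt (Var[freeEnergy n b; disorder n]))
                ∂(disorder n)| ≤ C * (T * (n : ℝ) ^ (1 / 3 : ℝ)) ^ (-(1 / 1000) : ℝ)) ∧
        -- the conditional law of the free energy
        ∀ x : ℝ, ∫ z, ((disorder n).real {g | freeEnergy n b (mixed n (1 - T) z g) ≤ x} -
          (disorder n).real {g | freeEnergy n b g ≤ x}) ^ 2 ∂(disorder n) ≤
            C * (T * (n : ℝ) ^ (1 / 3 : ℝ)) ^ (-(1 / 3000) : ℝ)) ∧
      -- the overlap at the scale `n ^ (-1/3)` and below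
      (∀ T : ℝ, 0 ≤ T → T ≤ c * (n : ℝ) ^ (-(1 / 3) : ℝ) →
        c * (n : ℝ) ^ (2 / 3 : ℝ) ≤ n * crossOverlap n b (1 - T)) ∧
      -- the Hermite levels
      ∀ m : ℕ, 1 ≤ m →
        levelVar n b m ≤ C * (m / (n : ℝ) ^ (1 / 3 : ℝ)) ^ (1 / 1000 : ℝ) *
          Var[freeEnergy n b; disorder n] ∧
        Var[freeEnergy n b; disorder n] - levelVar n b m ≤
          C * (m / (n : ℝ) ^ (1 / 3 : ℝ)) ^ (-(1 / 1000) : ℝ) *
            Var[freeEnergy n b; disorder n] :=
  Vale.Agent.P146.H566.Ch.window hb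
    (Vale.Agent.P146.H566.Ch.vl_of hb (Vale.Agent.P146.H865.le_all hb))
    (Vale.Agent.P146.H566.Ch.sb_of hb (Vale.Agent.P146.H865.le_all hb))

end Vale.Agent.Results.P146.ChaosWindow
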