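import Vale.Agent.P146.Defs
import Vale.Agent.P146.H605.Defs
import Vale.Agent.P146.H196.UDefs
import Vale.Agent.P146.H566.FinF
import Vale.Agent.P146.H865.Close4

/-!
# P146: the order of the fluctuations of the Sherrington-Kirkpatrick free energy

For every `b > 1` the fluctuations of `F_n(b)` are exactly of the order `n ^ (1 / 6)` predicted in
physics: two-sided bounds without logarithms for the variance, the exponential moments at all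
scales, the right tail and the moments; both sides of the mean are visited with probability
bounded below; and the limit laws of `(F_n - E F_n) / n ^ (1 / 6)` are nondegenerate, not Gaussian,
have bounded log-concave densities and the right tail `exp (- u ^ (6 / 5))`.
-/

open MeasureTheory ProbabilityTheory Filter Topology

namespace Vale.Agent.Results.P146.TwoSided

open Vale.Agent.P146 Vale.Agent.P146.H605 Vale.Agent.P146.H196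
open Vale.Agent.P146.H509 (lawY)

theorem result (b : ℝ) (hb : 1 < b) :
    (∃ c C : ℝ, 0 < c ∧ 0 < C ∧ ∀ n : ℕ, 2 ≤ n →
      -- the variance
      (c * (n : ℝ) ^ (1 / 3 : ℝ) ≤ Var[freeEnergy n b; disorder n] ∧
        Var[freeEnergy n b; disorder n] ≤ C * (n : ℝ) ^ (1 / 3 : ℝ)) ∧
      -- both sides, with probability bounded below
      (c ≤ (disorder n).real {g | meanF n b + c * (n : ℝ) ^ (1 / 6 : ℝ) ≤ freeEnergy n b g} ∧
        c ≤ (disorder n).real {g | freeEnergy n b g ≤ meanF n b - c * (n : ℝ) ^ (1 / 6 : ℝ)}) ∧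
      -- small balls
      (∀ u : ℝ, 0 ≤ u → ∀ y : ℝ, (disorder n).real {g | |freeEnergy n b g - y| ≤ u} ≤
        C * (1 + u) / (n : ℝ) ^ (1 / 6 : ℝ)) ∧
      -- the exponential moments, lower bounds
      ((∀ x : ℝ, 0 ≤ x → Real.exp (c * ((n : ℝ) ^ (1 / 3 : ℝ) * x ^ 2)) ≤
          ∫ g, Real.exp (x * (freeEnergy n b g - meanF n b)) ∂(disorder n)) ∧
        ∀ x : ℝ, C * (n : ℝ) ^ (-(1 / 6) : ℝ) ≤ x → x ≤ 1 → Real.exp (c * (n * x ^ 6)) ≤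
          ∫ g, Real.exp (x * (freeEnergy n b g - meanF n b)) ∂(disorder n)) ∧
      -- the right tail, lower bound
      (∀ u : ℝ, C ≤ u → u ≤ c * (n : ℝ) ^ (5 / 6 : ℝ) → Real.exp (-(C * u ^ (6 / 5 : ℝ))) ≤
        (disorder n).real {g | meanF n b + u * (n : ℝ) ^ (1 / 6 : ℝ) ≤ freeEnergy n b g}) ∧
      -- the moments, lower bounds
      ((∀ p : ℝ, 1 ≤ p → p ≤ c * n → (c * (p ^ (5 / 6 : ℝ) * (n : ℝ) ^ (1 / 6 : ℝ))) ^ p ≤
          ∫ g, (max (freeEnergy n b g - meanF n b) 0) ^ p ∂(disorder n)) ∧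
        ∀ p : ℝ, 0 < p → c * (c * (n : ℝ) ^ (1 / 6 : ℝ)) ^ p ≤
          ∫ g, (max (meanF n b - freeEnergy n b g) 0) ^ p ∂(disorder n) ∧
          c * (c * (n : ℝ) ^ (1 / 6 : ℝ)) ^ p ≤
          ∫ g, (max (freeEnergy n b g - meanF n b) 0) ^ p ∂(disorder n)) ∧
      -- chaos, lower bound
      (∃ t : ℝ, 0 ≤ t ∧ t < 1 ∧
        c * (n : ℝ) ^ (1 / 3 : ℝ) / Real.log n ≤ n * (1 - t) * crossOverlap n b t) ∧
      -- the matching upper bounds: exponential moments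
      (∀ x : ℝ, x ≤ (n : ℝ) ^ (-(1 / 6) : ℝ) →
        ∫ g, Real.exp (x * (freeEnergy n b g - meanF n b)) ∂(disorder n) ≤
          Real.exp (C * ((n : ℝ) ^ (1 / 3 : ℝ) * x ^ 2))) ∧
      (∀ x : ℝ, (n : ℝ) ^ (-(1 / 6) : ℝ) ≤ x → x ≤ 1 →
        ∫ g, Real.exp (x * (freeEnergy n b g - meanF n b)) ∂(disorder n) ≤
          Real.exp (C * (n * x ^ 6))) ∧
      -- tails
      (∀ u : ℝ, 0 ≤ u →
        (disorder n).real {g | freeEnergy n b g ≤ meanF n b - u * (n : ℝ) ^ (1 / 6 : ℝ)} ≤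
          Real.exp (-(c * u ^ 2)) ∧
        (disorder n).real {g | meanF n b + u * (n : ℝ) ^ (1 / 6 : ℝ) ≤ freeEnergy n b g} ≤
          Real.exp (-(c * min (u ^ 2) (u ^ (6 / 5 : ℝ))))) ∧
      -- moments
      (∀ p : ℝ, 1 ≤ p →
        ∫ g, |freeEnergy n b g - meanF n b| ^ p ∂(disorder n) ≤
          (C * (p ^ (5 / 6 : ℝ) * (n : ℝ) ^ (1 / 6 : ℝ))) ^ p ∧
        ∫ g, (max (meanF n b - freeEnergy n b g) 0) ^ p ∂(disorder n) ≤
          (C * (p ^ (1 / 2 : ℝ) * (n : ℝ) ^ (1 / 6 : ℝ))) ^ p) ∧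
      -- chaos
      (∀ t : ℝ, 0 ≤ t → t < 1 →
        n * (1 - t) * crossOverlap n b t ≤ C * (n : ℝ) ^ (1 / 3 : ℝ))) ∧
    -- the limit laws of `(F_n - E F_n) / n ^ (1 / 6)`
    (∀ φ : ℕ → ℕ, StrictMono φ → ∃ ψ : ℕ → ℕ, StrictMono ψ ∧ ∃ ν : ProbabilityMeasure ℝ,
      Tendsto (lawY b ∘ φ ∘ ψ) atTop (𝓝 ν)) ∧
    ∃ c C : ℝ, 0 < c ∧ 0 < C ∧ ∀ φ : ℕ → ℕ, Tendsto φ atTop atTop → ∀ ν : ProbabilityMeasure ℝ,
      Tendsto (lawY b ∘ φ) atTop (𝓝 ν) →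
      ∫ y, y ∂(ν : Measure ℝ) = 0 ∧
      c ≤ ∫ y, y ^ 2 ∂(ν : Measure ℝ) ∧ ∫ y, y ^ 2 ∂(ν : Measure ℝ) ≤ C ∧
      0 ≤ ∫ y, y ^ 3 ∂(ν : Measure ℝ) ∧
      (∃ p : ℝ → ℝ, (∀ x, 0 ≤ p x ∧ p x ≤ C) ∧
        (∀ s t : ℝ, 0 < s → 0 < t → s + t = 1 → ∀ x y : ℝ,
          p x ^ s * p y ^ t ≤ p (s * x + t * y)) ∧
        (ν : Measure ℝ) = volume.withDensity fun x => ENNReal.ofReal (p x)) ∧
      (∀ ξ : ℝ, Integrable (fun y => Real.exp (ξ * y)) (ν : Measure ℝ)) ∧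
      (∀ ξ : ℝ, 0 ≤ ξ →
        ∫ y, Real.exp (-ξ * y) ∂(ν : Measure ℝ) ≤
          Real.exp (ξ ^ 2 / 2 * ∫ y, y ^ 2 ∂(ν : Measure ℝ)) ∧
        Real.exp (ξ ^ 2 / 2 * ∫ y, y ^ 2 ∂(ν : Measure ℝ)) ≤
          ∫ y, Real.exp (ξ * y) ∂(ν : Measure ℝ)) ∧
      (∀ ξ : ℝ, C ≤ ξ → Real.exp (c * ξ ^ 6) ≤ ∫ y, Real.exp (ξ * y) ∂(ν : Measure ℝ) ∧
        ∫ y, Real.exp (ξ * y) ∂(ν : Measure ℝ) ≤ Real.exp (C * ξ ^ 6)) ∧
      (∀ u : ℝ, 0 ≤ u → (ν : Measure ℝ).real (Set.Iic (-u)) ≤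
        Real.exp (-(u ^ 2 / (2 * ∫ y, y ^ 2 ∂(ν : Measure ℝ))))) ∧
      (∀ t : ℝ, C ≤ t → Real.exp (-(C * t ^ (6 / 5 : ℝ))) ≤ (ν : Measure ℝ).real (Set.Ici t) ∧
        (ν : Measure ℝ).real (Set.Ici t) ≤ Real.exp (-(c * t ^ (6 / 5 : ℝ)))) ∧
      ∀ (a : ℝ) (w : NNReal), (ν : Measure ℝ) ≠ gaussianReal a w :=
  Vale.Agent.P146.H566.two_sided hb (Vale.Agent.P146.H865.le_all hb)

end Vale.Agent.Results.P146.TwoSided
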