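import Vale.Agent.P146.Defs
import Vale.Agent.P146.H605.Defs
import Vale.Agent.P146.H196.UDefs
import Vale.Agent.P146.H607.Fin4

/-!
# P146: the upper half of the fluctuations of the Sherrington-Kirkpatrick free energy, sharp order

For every `b > 1` the fluctuations of `F_n(b)` are at most of the order `n ^ (1 / 6)` predicted in
physics, with no logarithm: variance, exponential moments at all scales, both tails, all moments
and disorder chaos.
-/

open MeasureTheory ProbabilityTheory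

namespace Vale.Agent.Results.P146.UpperOrder

open Vale.Agent.P146 Vale.Agent.P146.H605 Vale.Agent.P146.H196

theorem result (b : ℝ) (hb : 1 < b) :
    ∃ C : ℝ, 0 < C ∧ ∀ n : ℕ, 1 ≤ n →
      -- the variance
      Var[freeEnergy n b; disorder n] ≤ C * (n : ℝ) ^ (1 / 3 : ℝ) ∧
      -- the exponential moments
      (∀ x : ℝ, x ≤ (n : ℝ) ^ (-(1 / 6) : ℝ) →
        ∫ g, Real.exp (x * (freeEnergy n b g - meanF n b)) ∂(disorder n) ≤
          Real.exp (C * ((n : ℝ) ^ (1 / 3 : ℝ) * x ^ 2))) ∧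
      (∀ x : ℝ, (n : ℝ) ^ (-(1 / 6) : ℝ) ≤ x → x ≤ 1 →
        ∫ g, Real.exp (x * (freeEnergy n b g - meanF n b)) ∂(disorder n) ≤
          Real.exp (C * (n * x ^ 6))) ∧
      -- the tails
      (∀ u : ℝ, 0 ≤ u →
        (disorder n).real {g | freeEnergy n b g ≤ meanF n b - u * (n : ℝ) ^ (1 / 6 : ℝ)} ≤
          Real.exp (-(u ^ 2 / C)) ∧
        (disorder n).real {g | meanF n b + u * (n : ℝ) ^ (1 / 6 : ℝ) ≤ freeEnergy n b g} ≤
          Real.exp (-(min (u ^ 2) (u ^ (6 / 5 : ℝ)) / C))) ∧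
      -- the moments
      (∀ p : ℝ, 1 ≤ p →
        ∫ g, |freeEnergy n b g - meanF n b| ^ p ∂(disorder n) ≤
          (C * (p ^ (5 / 6 : ℝ) * (n : ℝ) ^ (1 / 6 : ℝ))) ^ p ∧
        ∫ g, (max (meanF n b - freeEnergy n b g) 0) ^ p ∂(disorder n) ≤
          (C * (p ^ (1 / 2 : ℝ) * (n : ℝ) ^ (1 / 6 : ℝ))) ^ p) ∧
      -- disorder chaos
      (∀ t : ℝ, 0 ≤ t → t < 1 →
        n * (1 - t) * crossOverlap n b t ≤ C * (n : ℝ) ^ (1 / 3 : ℝ)) :=
  Vale.Agent.P146.U.H607.final hb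

end Vale.Agent.Results.P146.UpperOrder
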